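import Vale.Agent.P004X.P004G.Iface
import Vale.Agent.P004X.AwExp
import Vale.Agent.P004.H3.FnSer

/-!
# P004/H3: the series `Fn f h = ∑ bet f n χ_h(n)`, and facts about `Good`
-/

open Real MeasureTheory Set
open scoped ENNReal

namespace P004G.H3

export P004.H3 (dv_nonneg one_le_dv dv_mul_le dv_le_of_dvd int_exp setIntegral_restrict abs_int_le
  dv_le summable_dv_pow abs_chi_le)

variable [Crv]

theorem good_mul {a b : ℕ} (ha : Good a) (hb : Good b) : Good (a * b) := ha.mul hb

theorem good_one : Good 1 := Good.one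

theorem good_of_ca_ne_zero (_ : StCoef) {n : ℕ} (hn : ca n ≠ 0) : Good n := Good.of_ca hn

/-! ### the coefficients `bet` -/

/-- the bound for `bet` -/
theorem abs_bet_le (hC : StCoef) {f : ℝ → ℝ} {U : ℝ} (hU : 0 < U) (hf1 : ∀ u, |f u| ≤ 1)
    (hf0 : ∀ u, u < U → f u = 0) (n : ℕ) :
    √(n : ℝ) * |bet f n| ≤ 2 * (Aw n * Real.exp (-π * n * U)) := by
  rcases Nat.eq_zero_or_pos n with rfl | hn
  · simp only [bet, hC.zero]
    simp
    have := AW.Aw_nonneg 0
    positivity
  have hnR : (0 : ℝ) < n := by exact_mod_cast hn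
  have hs : 0 < √(n : ℝ) := Real.sqrt_pos.2 hnR
  have hss : √(n : ℝ) * √(n : ℝ) = n := Real.mul_self_sqrt hnR.le
  have hpi := Real.pi_gt_three
  have h1 := abs_int_le (f := f) (c := π * n) hU (by positivity) hf1 hf0
  have e1 : ∀ u : ℝ, -(π * n) * u = -π * n * u := fun u => by ring
  simp only [e1] at h1
  unfold bet
  rw [abs_mul, abs_mul, abs_of_pos (show (0 : ℝ) < 4 by norm_num)]
  have hd := AW.Aw_nonneg n
  calc √(n : ℝ) * (4 * |(ca n : ℝ)| * |∫ u in Ioi (0 : ℝ), Real.exp (-π * n * u) * f u|)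
      ≤ √(n : ℝ) * (4 * (Aw n * √(n : ℝ)) * (Real.exp (-π * n * U) / (π * n))) := by
        gcongr
        exact hC.bound n
    _ = (4 / π) * (Aw n * Real.exp (-π * n * U)) := by
        have : √(n : ℝ) * (4 * (Aw n * √(n : ℝ)) * (Real.exp (-π * n * U) / (π * n))) =
          4 * Aw n * Real.exp (-π * n * U) * (√(n : ℝ) * √(n : ℝ)) / (π * n) := by ring
        rw [this, hss]
        field_simp
    _ ≤ 2 * (Aw n * Real.exp (-π * n * U)) := by
        gcongr
        rw [div_le_iff₀ (by positivity)]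
        linarith

theorem abs_bet_le' (hC : StCoef) {f : ℝ → ℝ} {U : ℝ} (hU : 0 < U) (hf1 : ∀ u, |f u| ≤ 1)
    (hf0 : ∀ u, u < U → f u = 0) (n : ℕ) :
    |bet f n| ≤ 2 * (Aw n * Real.exp (-π * n * U)) := by
  rcases Nat.eq_zero_or_pos n with rfl | hn
  · simp only [bet, hC.zero]
    simp
    have := AW.Aw_nonneg 0
    positivity
  refine le_trans ?_ (abs_bet_le hC hU hf1 hf0 n)
  have : 1 ≤ √(n : ℝ) := by
    rw [Real.one_le_sqrt]
    exact_mod_cast hn
  nlinarith [abs_nonneg (bet f n)]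

theorem summable_aw {U : ℝ} (hU : 0 < U) :
    Summable fun n : ℕ => Aw n * Real.exp (-π * n * U) := by
  refine Summable.of_nonneg_of_le (fun n => ?_) (fun n => ?_) (AW.summable_exp 0 hU)
  · have := AW.Aw_nonneg n
    positivity
  · rw [pow_zero, mul_one]
    exact mul_le_mul_of_nonneg_right (AW.Aw_le_sq n) (Real.exp_pos _).le

theorem summable_bet (hC : StCoef) {f : ℝ → ℝ} {U : ℝ} (hU : 0 < U) (hf1 : ∀ u, |f u| ≤ 1)
    (hf0 : ∀ u, u < U → f u = 0) : Summable fun n : ℕ => |bet f n| := by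
  have h1 := summable_aw hU
  exact Summable.of_nonneg_of_le (fun n => abs_nonneg _)
    (fun n => abs_bet_le' hC hU hf1 hf0 n) (h1.mul_left 2)

theorem summable_bet_chi (hC : StCoef) {f : ℝ → ℝ} {U : ℝ} (hU : 0 < U) (hf1 : ∀ u, |f u| ≤ 1)
    (hf0 : ∀ u, u < U → f u = 0) (h : ℤ) : Summable fun n : ℕ => bet f n * chi h n := by
  refine Summable.of_norm_bounded (summable_bet hC hU hf1 hf0) fun n => ?_
  rw [norm_mul, Real.norm_eq_abs, Real.norm_eq_abs]
  exact mul_le_of_le_one_right (abs_nonneg _) (abs_chi_le _ _)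

/-- `Fn f h = ∑ bet f n χ_h(n)` -/
theorem Fn_eq (hC : StCoef) {f : ℝ → ℝ} {U : ℝ} (hU : 0 < U) (hfm : Measurable f)
    (hf1 : ∀ u, |f u| ≤ 1) (hf0 : ∀ u, u < U → f u = 0) (h : ℤ) :
    Fn f h = ∑' n : ℕ, bet f n * chi h n := by
  unfold Fn
  set F : ℕ → ℝ → ℝ := fun n u => 4 * ((ca n : ℝ) * chi h n) * (Real.exp (-π * n * u) * f u)
    with hF
  have hpi := Real.pi_pos
  have hint : ∀ n : ℕ, IntegrableOn (F n) (Ioi 0) := by
    intro n
    rcases Nat.eq_zero_or_pos n with rfl | hn
    · have : F 0 = fun _ => 0 := by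
        funext u
        simp only [hF, hC.zero]
        simp
      rw [this]
      exact integrable_zero _ _ _
    have hnR : (0 : ℝ) < n := by exact_mod_cast hn
    refine Integrable.const_mul ?_ _
    have h1 : IntegrableOn (fun u : ℝ => Real.exp (-(π * n) * u)) (Ioi 0) :=
      exp_neg_integrableOn_Ioi 0 (by positivity)
    refine Integrable.mono h1 ?_ ?_
    · exact ((by fun_prop : Measurable fun u : ℝ => Real.exp (-π * n * u)).mul
        hfm).aestronglyMeasurable
    · refine Filter.Eventually.of_forall fun u => ?_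
      rw [norm_mul, Real.norm_of_nonneg (Real.exp_pos _).le,
        Real.norm_of_nonneg (Real.exp_pos _).le]
      have e : -(π * n) * u = -π * n * u := by ring
      rw [e]
      exact mul_le_of_le_one_right (Real.exp_pos _).le (hf1 u)
  have hval : ∀ n : ℕ, ∫ u in Ioi (0 : ℝ), F n u = bet f n * chi h n := by
    intro n
    simp only [hF]
    rw [integral_const_mul]
    unfold bet
    ring
  have hnorm : Summable fun n : ℕ => ∫ u in Ioi (0 : ℝ), ‖F n u‖ := by
    have h1 := summable_aw hU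
    refine Summable.of_nonneg_of_le (fun n => integral_nonneg fun u => norm_nonneg _) (fun n => ?_)
      (h1.mul_left 2)
    -- the norm is `bet` for `|f|`
    have habs1 : ∀ u, |(|f u|)| ≤ 1 := fun u => by rw [abs_abs]; exact hf1 u
    have habs0 : ∀ u, u < U → |f u| = 0 := fun u hu => by rw [hf0 u hu, abs_zero]
    have h2 := abs_bet_le' hC (f := fun u => |f u|) hU habs1 habs0 n
    refine le_trans ?_ h2
    have e : ∫ u in Ioi (0 : ℝ), ‖F n u‖ =
        4 * (|(ca n : ℝ)| * |chi h n|) * ∫ u in Ioi (0 : ℝ), Real.exp (-π * n * u) * |f u| := by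
      rw [← integral_const_mul]
      refine setIntegral_congr_fun measurableSet_Ioi fun u _ => ?_
      simp only [hF]
      rw [norm_mul, norm_mul, norm_mul, norm_mul, Real.norm_eq_abs, Real.norm_eq_abs,
        Real.norm_eq_abs, Real.norm_eq_abs, Real.norm_eq_abs,
        abs_of_pos (show (0 : ℝ) < 4 by norm_num), abs_of_pos (Real.exp_pos _)]
    have hI : 0 ≤ ∫ u in Ioi (0 : ℝ), Real.exp (-π * n * u) * |f u| :=
      integral_nonneg fun u => by positivity
    rw [e]
    unfold bet
    rw [abs_mul, abs_mul, abs_of_pos (show (0 : ℝ) < 4 by norm_num), abs_of_nonneg hI]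
    refine mul_le_mul_of_nonneg_right ?_ hI
    have := abs_chi_le h n
    nlinarith [abs_nonneg (ca n : ℝ)]
  have hmain := integral_tsum_of_summable_integral_norm hint hnorm
  simp only [hval] at hmain
  rw [hmain]
  refine setIntegral_congr_fun measurableSet_Ioi fun u _ => ?_
  simp only [hF, theta]
  rw [mul_assoc, ← tsum_mul_right, ← tsum_mul_left]
  refine tsum_congr fun n => ?_
  ring

end P004G.H3
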